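import Vale.Agent.P272.F.StmtC

/-! Statement definitions for P284: line bundles, Iitaka dimension, special manifolds. -/

namespace Vale.Agent.P284

open Vale.Agent.P272
open scoped Manifold

variable (n : ℕ) (X : Type) [TopologicalSpace X] [ChartedSpace (E n) X]

variable {X} in
/-- The coordinates of `q` in the chart at `x`. -/
noncomputable abbrev ch (x q : X) : E n := chartAt (E n) x q

variable {n X} in
/-- `u` is holomorphic on the image of `S` in the chart at `x`. -/
def HolOn (x : X) (u : E n → ℂ) (S : Set X) : Prop := DifferentiableOn ℂ u (ch n x '' S)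

/-- A holomorphic line bundle: it has a frame `e x` on a neighbourhood `U x` of every point `x`,
and `e x = g x x' • e x'` on the overlaps. -/
structure LB where
  U : X → Set X
  opn : ∀ x, IsOpen (U x)
  mem : ∀ x, x ∈ U x
  sub : ∀ x, U x ⊆ (chartAt (E n) x).source
  g : X → X → X → ℂ
  hol : ∀ x x', HolOn x (g x x' ∘ (chartAt (E n) x).symm) (U x ∩ U x')
  one : ∀ x, ∀ q ∈ U x, g x x q = 1
  coc : ∀ x x' x'' q, q ∈ U x → q ∈ U x' → q ∈ U x'' → g x x' q * g x' x'' q = g x x'' q

variable {n X}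

/-- A holomorphic section of the `m`-th power of `L`: `s x` is its coefficient in the frame
`(e x) ^ m`, read in the chart at `x`. -/
structure LB.Sec (L : LB n X) (m : ℕ) where
  s : X → E n → ℂ
  hol : ∀ x, HolOn x (s x) (L.U x)
  compat : ∀ x x' q, q ∈ L.U x → q ∈ L.U x' →
    s x' (ch n x' q) = s x (ch n x q) * L.g x x' q ^ m

/-- The meromorphic map of the complete linear system of `L ^ m` has rank at least `r` somewhere:
there are sections `σ 0, ..., σ r` and a point `q` where they do not all vanish and where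
`[σ 0 : ... : σ r]` is a submersion to projective `r`-space. -/
def LB.RankGe (L : LB n X) (m r : ℕ) : Prop :=
  ∃ (σ : Fin (r + 1) → L.Sec m) (q : X), (∃ i, (σ i).s q (ch n q q) ≠ 0) ∧
    Function.Surjective fun (v : ℂ × E n) (i : Fin (r + 1)) =>
      v.1 * (σ i).s q (ch n q q) + fderiv ℂ ((σ i).s q) (ch n q q) v.2

/-- The Iitaka dimension of `L` is the integer `p`. -/
def LB.Kappa (L : LB n X) (p : ℕ) : Prop :=
  IsGreatest {r | ∃ m, 1 ≤ m ∧ L.RankGe m r} p

/-- A sheaf morphism from `L` to the holomorphic `p`-forms: `w x` is the image of the frame `e x`,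
read in the chart at `x`. -/
structure LB.Mor (L : LB n X) (p : ℕ) where
  w : X → E n → E n [⋀^Fin p]→ₗ[ℂ] ℂ
  hol : ∀ x v, HolOn x (fun y => w x y v) (L.U x)
  compat : ∀ x x' q, q ∈ L.U x → q ∈ L.U x' → ∀ v,
    w x (ch n x q) (fun i => jac n X x x' q (v i)) = L.g x x' q * w x' (ch n x' q) v

variable (n X)

/-- There is no Bogomolov sheaf. -/
def Special : Prop :=
  ∀ p, 1 ≤ p → p ≤ n → ∀ L : LB n X, L.Kappa p → ∀ φ : L.Mor p, ∀ x, φ.w x (ch n x x) = 0

/-- A group with an abelian subgroup of finite index. -/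
def VirtAb (G : Type) [Group G] : Prop :=
  ∃ H : Subgroup G, H.FiniteIndex ∧ ∀ a ∈ H, ∀ b ∈ H, a * b = b * a

/-- The fundamental group is virtually abelian. -/
def PiVA (Z : Type) [TopologicalSpace Z] (z : Z) : Prop := VirtAb (FundamentalGroup Z z)

/-- There is a Kaehler metric, and every entire curve is constant. -/
def HypK : Prop :=
  (∃ g : HermMetric n X, g.IsClosed) ∧
    ∀ γ : ℂ → X, MDifferentiable 𝓘(ℂ, ℂ) 𝓘(ℂ, E n) γ → ∀ z w, γ z = γ w

variable {X}

/-- The map `f` is holomorphic. -/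
def Hol (d : ℕ) {Y : Type} [TopologicalSpace Y] [ChartedSpace (E d) Y] (f : X → Y) : Prop :=
  MDifferentiable 𝓘(ℂ, E n) 𝓘(ℂ, E d) f

/-- The map `f` is a submersion at `z`. -/
def Subm (d : ℕ) {Y : Type} [TopologicalSpace Y] [ChartedSpace (E d) Y] (f : X → Y) (z : X) :
    Prop :=
  Function.Surjective (mfderiv 𝓘(ℂ, E n) 𝓘(ℂ, E d) f z)

end Vale.Agent.P284
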