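import Vale.Agent.P272.F.Z.Coc

/-! P284 Loc: local parametrisation of a regular fibre and the maximum principle on it. -/

open Set Filter Topology Metric

namespace Vale.Agent.P284

open Vale.Agent.P272

theorem right_inv {n d : ℕ} {T : E n →L[ℂ] E d} (h : Function.Surjective T) :
    ∃ R : E d →L[ℂ] E n, ∀ b, T (R b) = b := by
  obtain ⟨R, hR⟩ := (T : E n →ₗ[ℂ] E d).exists_rightInverse_of_surjective
    (LinearMap.range_eq_top.2 h)
  exact ⟨LinearMap.toContinuousLinearMap R, fun b => LinearMap.congr_fun hR b⟩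

theorem param {n d : ℕ} {G : E n → E d} {u : E n} (hG : AnalyticAt ℂ G u)
    (hs : Function.Surjective (fderiv ℂ G u)) :
    ∃ ψ Θ : E n → E n, AnalyticAt ℂ ψ 0 ∧ ψ 0 = u ∧ (∀ᶠ w in 𝓝 0, G (ψ w) = G u) ∧
      (∀ a, fderiv ℂ G u a = 0 → fderiv ℂ ψ 0 a = a) ∧ Tendsto Θ (𝓝 u) (𝓝 0) ∧
      ∀ᶠ v in 𝓝 u, G v = G u → ψ (Θ v) = v := by
  obtain ⟨R, hR⟩ := right_inv hs
  set T := fderiv ℂ G u
  let Θ : E n → E n := fun v => v - u - R (T (v - u)) + R (G v - G u)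
  have h0 : Θ u = 0 := by simp [Θ]
  have h1 : ∀ v, T (Θ v) = G v - G u := fun v => by
    simp only [Θ]
    rw [map_add, map_sub T (v - u), hR, hR, sub_self, zero_add]
  have h2 : HasFDerivAt Θ ((ContinuousLinearEquiv.refl ℂ (E n) : E n ≃L[ℂ] E n) : E n →L[ℂ] E n) u := by
    have a1 := (hasFDerivAt_id (𝕜 := ℂ) u).sub_const u
    have a2 := (a1.sub ((R.comp T).hasFDerivAt.comp u a1)).add
      (R.hasFDerivAt.comp u (hG.differentiableAt.hasFDerivAt.sub_const (G u)))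
    refine a2.congr_fderiv (ContinuousLinearMap.ext fun a => ?_)
    simp [T]
  have h3 : ContDiffAt ℂ ⊤ Θ u := by
    have a1 : AnalyticAt ℂ (fun v : E n => v - u) u := analyticAt_id.sub analyticAt_const
    exact ((a1.sub (((R.comp T).analyticAt _).comp a1)).add
      ((R.analyticAt _).comp (hG.sub analyticAt_const))).contDiffAt
  have h4 := h3.hasStrictFDerivAt' h2 (by simp)
  let Ξ := h3.localInverse h2 (by simp)
  have h5 : AnalyticAt ℂ Ξ 0 := h0 ▸ (h3.to_localInverse h2 (by simp)).analyticAt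
  have h6 : Ξ 0 = u := h0 ▸ h3.localInverse_apply_image h2 (by simp)
  have h7 : ∀ᶠ y in 𝓝 0, Θ (Ξ y) = y := h0 ▸ h4.eventually_right_inverse
  have h8 : ∀ᶠ v in 𝓝 u, Ξ (Θ v) = v := h4.eventually_left_inverse
  have h9 : HasFDerivAt Ξ (ContinuousLinearMap.id ℂ (E n)) 0 := h0 ▸ h4.to_localInverse.hasFDerivAt
  let P : E n →L[ℂ] E n := ContinuousLinearMap.id ℂ (E n) - R.comp T
  have hP : ∀ a, T a = 0 → P a = a := fun a ha => by simp [P, ha]
  have hP0 : P 0 = 0 := map_zero P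
  refine ⟨Ξ ∘ P, Θ, (hP0.symm ▸ h5).comp (P.analyticAt 0), by rw [Function.comp_apply, hP0, h6],
    ?_, fun a ha => ?_, h0 ▸ h2.continuousAt, h8.mono fun v hv h => ?_⟩
  · have a1 : Tendsto P (𝓝 0) (𝓝 0) := P.continuous.tendsto' 0 0 hP0
    refine (a1.eventually h7).mono fun w hw => sub_eq_zero.1 ?_
    rw [Function.comp_apply, ← h1, hw]
    simp [P, hR]
  · have a1 : HasFDerivAt Ξ (ContinuousLinearMap.id ℂ (E n)) (P 0) := hP0.symm ▸ h9
    rw [(a1.comp 0 P.hasFDerivAt).fderiv]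
    exact hP a ha
  · rw [Function.comp_apply, hP _ (by rw [h1, h, sub_self]), hv]

theorem loc_const {n : ℕ} {X : Type} [TopologicalSpace X] [T2Space X] {F : Set X}
    (hF : IsCompact F) {H : X → ℂ}
    (h : ∀ x ∈ F, ∃ (Ψ : E n → X) (T : X → E n), Ψ 0 = x ∧
      (∀ᶠ w in 𝓝 0, ContinuousAt Ψ w ∧ Ψ w ∈ F) ∧ AnalyticAt ℂ (H ∘ Ψ) 0 ∧
      Tendsto T (𝓝 x) (𝓝 0) ∧ ∀ᶠ z in 𝓝 x, z ∈ F → Ψ (T z) = z) :
    ∀ x ∈ F, ∀ᶠ z in 𝓝[F] x, H z = H x := by
  choose! Ψ T h0 h1 h2 h3 h4 using h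
  have e1 : ∀ x ∈ F, ∀ᶠ z in 𝓝[F] x, Ψ x (T x z) = z := fun x hx =>
    (eventually_mem_nhdsWithin.and ((h4 x hx).filter_mono nhdsWithin_le_nhds)).mono
      fun z hz => hz.2 hz.1
  have e2 : ∀ x ∈ F, Tendsto (T x) (𝓝[F] x) (𝓝 0) := fun x hx =>
    (h3 x hx).mono_left nhdsWithin_le_nhds
  have k1 : ∀ x ∈ F, (∀ᶠ w in 𝓝 0, (H ∘ Ψ x) w = (H ∘ Ψ x) 0) → ∀ᶠ z in 𝓝[F] x, H z = H x :=
    fun x hx hw => ((e1 x hx).and ((e2 x hx).eventually hw)).mono fun z hz => by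
      have a := hz.2
      rwa [Function.comp_apply, Function.comp_apply, hz.1, h0 x hx] at a
  have hc : ContinuousOn H F := fun x hx => by
    have a := (h2 x hx).continuousAt.tendsto.comp (e2 x hx)
    rw [Function.comp_apply, h0 x hx] at a
    exact a.congr' ((e1 x hx).mono fun z hz => congrArg H hz)
  let B : Set X := {x ∈ F | ¬ ∀ᶠ z in 𝓝[F] x, H z = H x}
  have hB : IsClosed B := by
    refine isClosed_of_closure_subset fun x hx => ?_
    have a1 : x ∈ F := hF.isClosed.closure_subset (closure_mono (sep_subset _ _) hx)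
    refine ⟨a1, fun a2 => ?_⟩
    have a3 := eventually_nhdsWithin_iff.1 ((eventually_eventually_nhdsWithin.2 a2).and a2)
    obtain ⟨z, a4, a5⟩ := ((mem_closure_iff_frequently.1 hx).and_eventually a3).exists
    exact a4.2 ((a5 a4.1).1.mono fun y hy => hy.trans (a5 a4.1).2.symm)
  have ho : ∀ x ∈ B, ∀ᶠ z in 𝓝[F] x, z ∈ B := fun x hx => by
    obtain ⟨r, r0, hr⟩ := Metric.eventually_nhds_iff_ball.1
      ((h1 x hx.1).and (h2 x hx.1).eventually_analyticAt)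
    refine ((e1 x hx.1).and (((e2 x hx.1).eventually (ball_mem_nhds 0 r0)).and
      eventually_mem_nhdsWithin)).mono fun z hz => ⟨hz.2.2, fun a1 => hx.2 (k1 x hx.1 ?_)⟩
    have a2 : Tendsto (Ψ x) (𝓝 (T x z)) (𝓝[F] z) := tendsto_nhdsWithin_iff.2
      ⟨by simpa [hz.1] using (hr _ hz.2.1).1.1.tendsto, (isOpen_ball.eventually_mem hz.2.1).mono
        fun w hw => (hr w hw).1.2⟩
    have a3 := AnalyticOnNhd.eqOn_of_preconnected_of_eventuallyEq (fun w hw => (hr w hw).2)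
      (analyticOnNhd_const (v := H z)) (convex_ball (0 : E n) r).isPreconnected hz.2.1
      (a2.eventually a1)
    exact (isOpen_ball.eventually_mem (mem_ball_self r0)).mono fun w hw =>
      (a3 hw).trans (a3 (mem_ball_self r0)).symm
  by_contra hn
  push Not at hn
  obtain ⟨x, hx, hn⟩ := hn
  obtain ⟨q, hq, hm⟩ := (hF.of_isClosed_subset hB (sep_subset _ _)).exists_isMaxOn
    ⟨x, hx, by simpa using hn⟩ (hc.mono (sep_subset _ _)).norm
  have a2 : Tendsto (Ψ q) (𝓝 0) (𝓝[F] q) := tendsto_nhdsWithin_iff.2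
    ⟨by simpa [h0 q hq.1] using (h1 q hq.1).self_of_nhds.1.tendsto,
      (h1 q hq.1).mono fun w hw => hw.2⟩
  refine hq.2 (k1 q hq.1 (Complex.eventually_eq_of_isLocalMax_norm
    ((h2 q hq.1).eventually_analyticAt.mono fun w hw => hw.differentiableAt) ?_))
  refine (a2.eventually (ho q hq)).mono fun w hw => ?_
  simpa [h0 q hq.1] using hm hw

end Vale.Agent.P284
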