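import Vale.Agent.P284.Upper
import Vale.Agent.P272.F.Z.Atl
import Vale.Agent.P272.F.Z.DD
import Vale.Agent.P272.F.A.Fin

/-! P284 Main: a special manifold dominates no hyperbolic Kaehler manifold of positive dimension. -/

open Set Filter Topology
open scoped Manifold ContDiff

namespace Vale.Agent.P284

open Vale.Agent.P272

variable {n d : ℕ} {X Y : Type} [TopologicalSpace X] [ChartedSpace (E n) X]
  [TopologicalSpace Y] [ChartedSpace (E d) Y] {f : X → Y} {x : X}

theorem point {Y : Type} [TopologicalSpace Y] [ConnectedSpace Y] [ChartedSpace (E 0) Y] :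
    Subsingleton Y := by
  have ho : ∀ p : Y, IsOpen ({p} : Set Y) := fun p => by
    have h1 : (chartAt (E 0) p).source = {p} := by
      refine eq_singleton_iff_unique_mem.2 ⟨mem_chart_source _ p, fun q hq => ?_⟩
      exact (chartAt (E 0) p).injOn hq (mem_chart_source _ p) (Subsingleton.elim _ _)
    rw [← h1]
    exact (chartAt (E 0) p).open_source
  have : DiscreteTopology Y := discreteTopology_iff_isOpen_singleton.2 ho
  exact PreconnectedSpace.trivial_of_discrete

theorem VirtAb.of_surj {G G' : Type} [Group G] [Group G'] (h : VirtAb G) {φ : G →* G'}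
    (hφ : Function.Surjective φ) : VirtAb G' := by
  obtain ⟨H, h1, h2⟩ := h
  refine ⟨H.map φ, ⟨ne_zero_of_dvd_ne_zero h1.index_ne_zero (H.index_map_dvd hφ)⟩, ?_⟩
  rintro _ ⟨a, ha, rfl⟩ _ ⟨b, hb, rfl⟩
  rw [← map_mul, h2 a ha b hb, map_mul]

omit [ChartedSpace (E n) X] in
theorem virt_univ {F : Set X} (hF : ∀ z, z ∈ F) (h : VirtAb (FundamentalGroup F ⟨x, hF x⟩)) :
    VirtAb (FundamentalGroup X x) := by
  refine h.of_surj (φ := FundamentalGroup.map ⟨Subtype.val, continuous_subtype_val⟩ ⟨x, hF x⟩)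
    fun p => ?_
  induction p using Quotient.inductionOn with
  | h γ => exact ⟨FundamentalGroup.fromPath (Quotient.mk _ (γ.map (f := fun z => (⟨z, hF z⟩ : F))
      (continuous_id.subtype_mk hF))), rfl⟩

omit [ChartedSpace (E n) X] in
theorem virt_point [Subsingleton X] (x : X) : VirtAb (FundamentalGroup X x) := by
  refine ⟨⊤, inferInstance, fun a _ b _ => ?_⟩
  have h : ∀ a b : FundamentalGroup X x, a = b := fun a b => by
    induction a using Quotient.inductionOn with
    | h γ =>
      induction b using Quotient.inductionOn with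
      | h γ' => exact congrArg (Quotient.mk _) (Path.ext (funext fun _ => Subsingleton.elim _ _))
  exact h _ _

theorem dim_zero [T2Space X] [CompactSpace X] [ConnectedSpace X] [IsManifold 𝓘(ℂ, E n) ω X]
    [T2Space Y] [CompactSpace Y] [ConnectedSpace Y] [IsManifold 𝓘(ℂ, E d) ω Y] (hX : Special n X)
    (g : HermMetric d Y) (hg : g.IsClosed)
    (hY : ∀ γ : ℂ → Y, MDifferentiable 𝓘(ℂ, ℂ) 𝓘(ℂ, E d) γ → ∀ z w, γ z = γ w)
    (hf : MDifferentiable 𝓘(ℂ, E n) 𝓘(ℂ, E d) f)
    (hs : ∀ z, f z = f x → Function.Surjective (mfderiv 𝓘(ℂ, E n) 𝓘(ℂ, E d) f z)) : d = 0 := by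
  by_contra hd
  have h1 : 1 ≤ d := Nat.one_le_iff_ne_zero.2 hd
  have h2 : ∀ z, f z = f x → Function.Surjective (dm n d f z) := fun z hz => dm_surj hf (hs z hz)
  have h3 : d ≤ n := by
    simpa using LinearMap.finrank_le_finrank_of_surjective
      (f := (dm n d f x : E n →ₗ[ℂ] E d)) (h2 x rfl)
  refine pbMor_ne hf (h2 x rfl) (hX d h1 h3 (pb hf) ⟨lower hf (h2 x rfl) ?_, ?_⟩ (pbMor hf) x)
  · exact z_full g hg.isKahler hY fun _ hA ρ hρ v => ample h1 hA ρ hρ v
  · rintro r ⟨m, -, h⟩
    exact upper hf h2 h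

end Vale.Agent.P284
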