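import Vale.Agent.P284.Defs
import Vale.Agent.P284.Loc

/-! P284 Pull: the pull-back of the canonical bundle under a holomorphic map. -/

open Set Filter Topology Metric
open scoped Manifold ContDiff

noncomputable section

namespace Vale.Agent.P284

open Vale.Agent.P272

variable {n d : ℕ} {X Y : Type} [TopologicalSpace X] [ChartedSpace (E n) X]
  [TopologicalSpace Y] [ChartedSpace (E d) Y] {f : X → Y} {x x' q : X} {y y' : Y}

theorem an_det {ι : Type} [Fintype ι] [DecidableEq ι] {M : E n → Matrix ι ι ℂ} {u : E n}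
    (h : ∀ i j, AnalyticAt ℂ (fun y => M y i j) u) : AnalyticAt ℂ (fun y => (M y).det) u := by
  simp only [Matrix.det_apply']
  exact Finset.analyticAt_fun_sum _ fun τ _ =>
    analyticAt_const.mul (Finset.analyticAt_fun_prod _ fun i _ => h _ _)

variable (n d) in
/-- The map in the charts at `x` and `y`. -/
def loc (f : X → Y) (x : X) (y : Y) : E n → E d := chartAt (E d) y ∘ f ∘ (chartAt (E n) x).symm

theorem loc_app (hx : q ∈ (chartAt (E n) x).source) :
    loc n d f x y (chartAt (E n) x q) = chartAt (E d) y (f q) := by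
  simp only [loc, Function.comp, (chartAt (E n) x).left_inv hx]

variable (n d) in
/-- The derivative in the preferred charts. -/
def dm (f : X → Y) (q : X) : E n →L[ℂ] E d := fderiv ℂ (loc n d f q (f q)) (chartAt (E n) q q)

theorem loc_self (hf : MDifferentiable 𝓘(ℂ, E n) 𝓘(ℂ, E d) f) (q : X) :
    HasFDerivAt (loc n d f q (f q)) (dm n d f q) (chartAt (E n) q q) := by
  have h := (hf q).hasMFDerivAt.2
  simp only [mfld_simps] at h
  exact (hasFDerivWithinAt_univ.1 h).differentiableAt.hasFDerivAt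

theorem dm_surj (hf : MDifferentiable 𝓘(ℂ, E n) 𝓘(ℂ, E d) f)
    (hs : Function.Surjective (mfderiv 𝓘(ℂ, E n) 𝓘(ℂ, E d) f q)) :
    Function.Surjective (dm n d f q) := by
  have h := (hf q).hasMFDerivAt.2
  simp only [mfld_simps] at h
  have e : HasFDerivAt (loc n d f q (f q))
      (show E n →L[ℂ] E d from mfderiv 𝓘(ℂ, E n) 𝓘(ℂ, E d) f q) (chartAt (E n) q q) :=
    hasFDerivWithinAt_univ.1 h
  rw [(loc_self hf q).unique e]
  exact hs

variable [IsManifold 𝓘(ℂ, E n) ω X] [IsManifold 𝓘(ℂ, E d) ω Y]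

theorem loc_chg (hc : Continuous f) {D : E n →L[ℂ] E d}
    (h : HasFDerivAt (loc n d f x y) D (chartAt (E n) x q))
    (hx : q ∈ (chartAt (E n) x).source) (hx' : q ∈ (chartAt (E n) x').source)
    (hy : f q ∈ (chartAt (E d) y).source) (hy' : f q ∈ (chartAt (E d) y').source) :
    HasFDerivAt (loc n d f x' y') ((jac d Y y' y (f q)).comp (D.comp (jac n X x x' q)))
      (chartAt (E n) x' q) := by
  have a1 : HasFDerivAt (chartAt (E n) x ∘ (chartAt (E n) x').symm) (jac n X x x' q)
      (chartAt (E n) x' q) := (z_jac x x' q hx hx').hasFDerivAt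
  have e1 : (chartAt (E n) x ∘ (chartAt (E n) x').symm) (chartAt (E n) x' q) =
      chartAt (E n) x q := by rw [Function.comp_apply, (chartAt (E n) x').left_inv hx']
  have a2 := (e1.symm ▸ h :
    HasFDerivAt (loc n d f x y) D
      ((chartAt (E n) x ∘ (chartAt (E n) x').symm) (chartAt (E n) x' q))).comp _ a1
  have a3 : HasFDerivAt (chartAt (E d) y' ∘ (chartAt (E d) y).symm) (jac d Y y' y (f q))
      ((loc n d f x y ∘ chartAt (E n) x ∘ (chartAt (E n) x').symm) (chartAt (E n) x' q)) := by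
    rw [Function.comp_apply, e1, loc_app hx]
    exact (z_jac y' y (f q) hy' hy).hasFDerivAt
  refine (a3.comp _ a2).congr_of_eventuallyEq ?_
  have a4 : ∀ᶠ u in 𝓝 (chartAt (E n) x' q), f ((chartAt (E n) x').symm u) ∈
      (chartAt (E d) y).source := by
    refine (hc.continuousAt.comp ((chartAt (E n) x').continuousAt_symm
      ((chartAt (E n) x').map_source hx'))).eventually_mem ?_
    rw [Function.comp_apply, (chartAt (E n) x').left_inv hx']
    exact (chartAt (E d) y).open_source.mem_nhds hy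
  refine ((z_ev hx hx').and a4).mono fun u hu => ?_
  simp only [loc, Function.comp, (chartAt (E n) x).left_inv hu.1.2,
    (chartAt (E d) y).left_inv hu.2]

theorem loc_der (hf : MDifferentiable 𝓘(ℂ, E n) 𝓘(ℂ, E d) f) (hx : q ∈ (chartAt (E n) x).source)
    (hy : f q ∈ (chartAt (E d) y).source) :
    HasFDerivAt (loc n d f x y) ((jac d Y y (f q) (f q)).comp
      ((dm n d f q).comp (jac n X q x q)))
      (chartAt (E n) x q) :=
  loc_chg hf.continuous (loc_self hf q) (mem_chart_source _ q) hx (mem_chart_source _ _) hy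

theorem loc_an (hf : MDifferentiable 𝓘(ℂ, E n) 𝓘(ℂ, E d) f) (hx : q ∈ (chartAt (E n) x).source)
    (hy : f q ∈ (chartAt (E d) y).source) : AnalyticAt ℂ (loc n d f x y) (chartAt (E n) x q) := by
  refine P278.osgood_at ?_
  have a4 : ∀ᶠ u in 𝓝 (chartAt (E n) x q), f ((chartAt (E n) x).symm u) ∈
      (chartAt (E d) y).source := by
    refine (hf.continuous.continuousAt.comp ((chartAt (E n) x).continuousAt_symm
      ((chartAt (E n) x).map_source hx))).eventually_mem ?_
    rw [Function.comp_apply, (chartAt (E n) x).left_inv hx]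
    exact (chartAt (E d) y).open_source.mem_nhds hy
  refine ((z_ev hx hx).and a4).mono fun u hu => ?_
  have a := (loc_der hf hu.1.2 hu.2).differentiableAt
  rwa [(chartAt (E n) x).right_inv hu.1.1] at a

omit [IsManifold 𝓘(ℂ, E d) ω Y] in
theorem jac_one (hy : y' ∈ (chartAt (E d) y).source) : jac d Y y y y' = 1 := z_self hy

omit [IsManifold 𝓘(ℂ, E d) ω Y] in
theorem det_jac_one (hy : y' ∈ (chartAt (E d) y).source) : (jac d Y y y y').det = 1 := by
  rw [jac_one hy]
  exact map_one LinearMap.det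

/-- The pull-back of the canonical bundle. -/
def pb (hf : MDifferentiable 𝓘(ℂ, E n) 𝓘(ℂ, E d) f) : LB n X where
  U x := (chartAt (E n) x).source ∩ f ⁻¹' (chartAt (E d) (f x)).source
  opn x := (chartAt (E n) x).open_source.inter
    ((chartAt (E d) (f x)).open_source.preimage hf.continuous)
  mem x := ⟨mem_chart_source _ x, mem_chart_source _ (f x)⟩
  sub _ := inter_subset_left
  g x x' q := (jac d Y (f x) (f x') (f q)).det
  hol x x' := by
    rintro _ ⟨q, hq, rfl⟩
    have a1 := (analyticAt_det _).comp (z_an (z_jac (f x) (f x')) hq.1.2 hq.2.2).fderiv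
    rw [← loc_app (n := n) hq.1.1] at a1
    exact (a1.comp (loc_an hf hq.1.1 hq.2.2)).differentiableAt.differentiableWithinAt
  one x q hq := det_jac_one hq.2
  coc x x' x'' q h h' h'' := by
    rw [← det_mul']
    exact congrArg _ (z_comp (z_jac (f x) (f x')) (z_jac (f x') (f x'')) h.2 h'.2 h''.2).2.symm

/-- The pull-back of a section. -/
def pbSec (hf : MDifferentiable 𝓘(ℂ, E n) 𝓘(ℂ, E d) f) {m : ℕ} (σ : CanSec d Y m) :
    (pb hf).Sec m where
  s x := σ.s (f x) ∘ loc n d f x (f x)
  hol x := by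
    rintro _ ⟨q, hq, rfl⟩
    have a1 := (σ.hol (f x)).differentiableAt ((chartAt (E d) (f x)).open_target.mem_nhds
      ((chartAt (E d) (f x)).map_source hq.2))
    rw [← loc_app (n := n) hq.1] at a1
    exact (a1.comp _ (loc_an hf hq.1 hq.2).differentiableAt).differentiableWithinAt
  compat x x' q h h' := by
    rw [Function.comp_apply, Function.comp_apply, loc_app h.1, loc_app h'.1]
    exact σ.compat (f x) (f x') (f q) h.2 h'.2

/-- The pull-back of top forms. -/
def pbMor (hf : MDifferentiable 𝓘(ℂ, E n) 𝓘(ℂ, E d) f) : (pb hf).Mor d where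
  w x u := (EuclideanSpace.basisFun (Fin d) ℂ).toBasis.det.compLinearMap
    (fderiv ℂ (loc n d f x (f x)) u : E n →ₗ[ℂ] E d)
  hol x v := by
    rintro _ ⟨q, hq, rfl⟩
    have a1 := (loc_an hf hq.1 hq.2).fderiv
    simp only [AlternatingMap.compLinearMap_apply, Module.Basis.det_apply]
    refine (an_det fun i j => ?_).differentiableAt.differentiableWithinAt
    exact (((EuclideanSpace.proj (𝕜 := ℂ) i).comp
      (ContinuousLinearMap.apply ℂ (E d) (v j))).analyticAt _).comp a1
  compat x x' q h h' v := by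
    have a1 := (loc_chg hf.continuous (loc_an hf h.1 h.2).differentiableAt.hasFDerivAt h.1 h'.1
      h.2 h.2).unique (loc_chg hf.continuous (loc_an hf h'.1 h'.2).differentiableAt.hasFDerivAt
        h'.1 h'.1 h'.2 h.2)
    rw [jac_one h.2, jac_one h'.1] at a1
    rw [AlternatingMap.compLinearMap_apply, AlternatingMap.compLinearMap_apply]
    refine Eq.trans (congrArg _ (funext fun i => DFunLike.congr_fun a1 (v i))) ?_
    exact Module.Basis.det_comp _ (jac d Y (f x) (f x') (f q) : E d →ₗ[ℂ] E d) _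

theorem pbMor_ne (hf : MDifferentiable 𝓘(ℂ, E n) 𝓘(ℂ, E d) f)
    (hs : Function.Surjective (dm n d f x)) :
    (pbMor hf).w x (chartAt (E n) x x) ≠ 0 := fun h => by
  choose v hv using fun i => hs ((EuclideanSpace.basisFun (Fin d) ℂ).toBasis i)
  have a1 := DFunLike.congr_fun h v
  have a2 := (EuclideanSpace.basisFun (Fin d) ℂ).toBasis.det_self
  rw [← funext hv] at a2
  exact one_ne_zero (a2.symm.trans a1)

/-- Linear combinations of sections. -/
def comb {L : LB n X} {m N : ℕ} (σ : Fin N → L.Sec m) (c : Fin N → ℂ) : L.Sec m where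
  s x u := ∑ j, c j * (σ j).s x u
  hol x := DifferentiableOn.fun_sum fun j _ => ((σ j).hol x).const_mul _
  compat x x' q h h' := by
    simp only [Finset.sum_mul, (σ _).compat x x' q h h', mul_assoc]

omit [IsManifold 𝓘(ℂ, E n) ω X] in
theorem U_nhds (L : LB n X) (hq : q ∈ L.U x) :
    chartAt (E n) x '' L.U x ∈ 𝓝 (chartAt (E n) x q) :=
  (((chartAt (E n) x).isOpen_image_iff_of_subset_source (L.sub x)).2 (L.opn x)).mem_nhds
    ⟨q, hq, rfl⟩

theorem lower (hf : MDifferentiable 𝓘(ℂ, E n) 𝓘(ℂ, E d) f)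
    (hs : Function.Surjective (dm n d f x)) (hY : CanAmple d Y) :
    ∃ m, 1 ≤ m ∧ (pb hf).RankGe m d := by
  obtain ⟨m, N, σ, hm, h1, -, h3⟩ := hY
  let B : (ℂ × E d) →ₗ[ℂ] (Fin (N + 1) → ℂ) := LinearMap.pi fun i =>
    (σ i).s (f x) (chartAt (E d) (f x) (f x)) • LinearMap.fst ℂ ℂ (E d) +
      (fderiv ℂ ((σ i).s (f x)) (chartAt (E d) (f x) (f x)) : E d →ₗ[ℂ] ℂ).comp
        (LinearMap.snd ℂ ℂ (E d))
  have hB : LinearMap.ker B = ⊥ := LinearMap.ker_eq_bot'.2 fun v hv => by
    have a1 : ∀ i, (σ i).s (f x) (chartAt (E d) (f x) (f x)) * v.1 +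
        fderiv ℂ ((σ i).s (f x)) (chartAt (E d) (f x) (f x)) v.2 = 0 := fun i => congrFun hv i
    have a2 := h3 (f x) v.2 (-v.1) fun i => by linear_combination a1 i
    obtain ⟨i, hi⟩ := h1 (f x)
    have a3 := a1 i
    rw [a2, map_zero, add_zero] at a3
    exact Prod.ext ((mul_eq_zero.1 a3).resolve_left hi) a2
  obtain ⟨Λ, hΛ⟩ := B.exists_leftInverse_of_injective hB
  obtain ⟨e⟩ : Nonempty ((ℂ × E d) ≃ₗ[ℂ] (Fin (d + 1) → ℂ)) :=
    FiniteDimensional.nonempty_linearEquiv_of_finrank_eq (by simp [add_comm])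
  let M := LinearMap.toMatrix' (e.toLinearMap.comp Λ)
  have hM : ∀ v i, ∑ j, M i j * B v j = e v i := fun v i => by
    have a1 := congrFun (LinearMap.toMatrix'_mulVec (e.toLinearMap.comp Λ) (B v)) i
    have a2 : Λ (B v) = v := LinearMap.congr_fun hΛ v
    rw [LinearMap.comp_apply, a2] at a1
    exact a1
  have hd : ∀ j, HasFDerivAt ((pbSec hf (σ j)).s x)
      ((fderiv ℂ ((σ j).s (f x)) (chartAt (E d) (f x) (f x))).comp
        (dm n d f x)) (chartAt (E n) x x) := fun j => by
    have a1 := (((σ j).hol (f x)).differentiableAt ((chartAt (E d) (f x)).open_target.mem_nhds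
      (mem_chart_target _ (f x)))).hasFDerivAt
    refine HasFDerivAt.comp _ ?_ (loc_self hf x)
    rwa [loc_app (mem_chart_source _ x)]
  have key : ∀ (v : ℂ × E n) i,
      v.1 * (comb (fun j => pbSec hf (σ j)) (M i)).s x (chartAt (E n) x x) +
        fderiv ℂ ((comb (fun j => pbSec hf (σ j)) (M i)).s x) (chartAt (E n) x x) v.2 =
      e (v.1, dm n d f x v.2) i := fun v i => by
    have a1 : fderiv ℂ ((comb (fun j => pbSec hf (σ j)) (M i)).s x) (chartAt (E n) x x) = _ :=
      (HasFDerivAt.fun_sum (u := Finset.univ) fun j _ => (hd j).const_mul (M i j)).fderiv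
    rw [a1, ← hM, sum_apply]
    show v.1 * ∑ j, M i j * (σ j).s (f x) (loc n d f x (f x) (chartAt (E n) x x)) + _ = _
    rw [loc_app (mem_chart_source _ x), Finset.mul_sum, ← Finset.sum_add_distrib]
    refine Finset.sum_congr rfl fun j _ => ?_
    show _ + M i j * _ = M i j * (_ * v.1 + _)
    rw [mul_add, mul_left_comm, mul_comm v.1]
    rfl
  refine ⟨m, hm, fun i => comb (fun j => pbSec hf (σ j)) (M i), x, ?_, fun b => ?_⟩
  · by_contra h
    push Not at h
    have a1 : e (1, 0) = 0 := funext fun i => by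
      have a2 := key (1, 0) i
      rw [h, map_zero, map_zero, mul_zero, add_zero] at a2
      exact a2.symm
    exact one_ne_zero (congrArg Prod.fst (e.map_eq_zero_iff.1 a1))
  · obtain ⟨a, ha⟩ := hs (e.symm b).2
    refine ⟨((e.symm b).1, a), funext fun i => (key _ i).trans ?_⟩
    rw [ha, e.apply_symm_apply]

end Vale.Agent.P284
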