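import Vale.Agent.P272.F.Z.Coc

/-! P284 Sard: the critical values of an analytic map have small Hausdorff dimension. -/

open Set Filter Topology Metric Module

namespace Vale.Agent.P284

open Vale.Agent.P272

theorem dim_loc {Z W : Type} [TopologicalSpace Z] [SecondCountableTopology Z] [EMetricSpace W]
    {G : Z → W} {S : Set Z} {c : ENNReal} (h : ∀ z ∈ S, ∃ u ∈ 𝓝[S] z, dimH (G '' u) ≤ c) :
    dimH (G '' S) ≤ c := by
  choose! u h1 h2 using h
  obtain ⟨t, ts, tc, ht⟩ := TopologicalSpace.countable_cover_nhdsWithin h1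
  refine (dimH_mono (image_mono ht)).trans ?_
  rw [image_iUnion₂, dimH_bUnion tc]
  exact iSup₂_le fun z hz => h2 z (ts hz)

variable {V W : Type} [NormedAddCommGroup V] [NormedSpace ℂ V] [FiniteDimensional ℂ V]
  [NormedAddCommGroup W] [NormedSpace ℂ W] [FiniteDimensional ℂ W]

omit [FiniteDimensional ℂ V] in
theorem rinv {T : V →L[ℂ] W} (h : Function.Surjective T) : ∃ R : W →L[ℂ] V, ∀ b, T (R b) = b := by
  obtain ⟨R, hR⟩ := (T : V →ₗ[ℂ] W).exists_rightInverse_of_surjective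
    (LinearMap.range_eq_top.2 h)
  exact ⟨LinearMap.toContinuousLinearMap R, fun b => LinearMap.congr_fun hR b⟩

theorem straight {G : V → W} {u : V} (hG : AnalyticAt ℂ G u)
    (hs : Function.Surjective (fderiv ℂ G u)) :
    ∃ Ξ Θ : V → V, AnalyticAt ℂ Ξ 0 ∧ Ξ 0 = u ∧
      (∀ᶠ w in 𝓝 0, G (Ξ w) = G u + fderiv ℂ G u w) ∧ Tendsto Θ (𝓝 u) (𝓝 0) ∧
      (∀ᶠ v in 𝓝 u, Ξ (Θ v) = v) ∧ ∀ v, fderiv ℂ G u (Θ v) = G v - G u := by
  have := FiniteDimensional.complete ℂ V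
  obtain ⟨R, hR⟩ := rinv hs
  set T := fderiv ℂ G u
  let Θ : V → V := fun v => v - u - R (T (v - u)) + R (G v - G u)
  have h0 : Θ u = 0 := by simp [Θ]
  have h1 : ∀ v, T (Θ v) = G v - G u := fun v => by
    simp only [Θ]
    rw [map_add, map_sub T (v - u), hR, hR, sub_self, zero_add]
  have h2 : HasFDerivAt Θ ((ContinuousLinearEquiv.refl ℂ V : V ≃L[ℂ] V) : V →L[ℂ] V) u := by
    have a1 := (hasFDerivAt_id (𝕜 := ℂ) u).sub_const u
    have a2 := (a1.sub ((R.comp T).hasFDerivAt.comp u a1)).add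
      (R.hasFDerivAt.comp u (hG.differentiableAt.hasFDerivAt.sub_const (G u)))
    refine a2.congr_fderiv (ContinuousLinearMap.ext fun a => ?_)
    simp [T]
  have h3 : ContDiffAt ℂ ⊤ Θ u := by
    have a1 : AnalyticAt ℂ (fun v : V => v - u) u := analyticAt_id.sub analyticAt_const
    exact ((a1.sub (((R.comp T).analyticAt _).comp a1)).add
      ((R.analyticAt _).comp (hG.sub analyticAt_const))).contDiffAt
  have h4 := h3.hasStrictFDerivAt' h2 (by simp)
  let Ξ := h3.localInverse h2 (by simp)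
  have h7 : ∀ᶠ y in 𝓝 0, Θ (Ξ y) = y := h0 ▸ h4.eventually_right_inverse
  exact ⟨Ξ, Θ, h0 ▸ (h3.to_localInverse h2 (by simp)).analyticAt,
    h0 ▸ h3.localInverse_apply_image h2 (by simp),
    h7.mono fun w hw => by rw [← sub_eq_iff_eq_add', ← h1, hw], h0 ▸ h2.continuousAt,
    h4.eventually_left_inverse, h1⟩

theorem sard_cr {k : ℕ} {G : V → W} {u : V} (hG : AnalyticAt ℂ G u) (π : W →L[ℂ] E k)
    (hs : Function.Surjective (π.comp (fderiv ℂ G u)))
    (hr : ∀ᶠ v in 𝓝 u, finrank ℂ (fderiv ℂ G v).range ≤ k) :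
    ∃ N ∈ 𝓝 u, dimH (G '' N) ≤ (2 * k : ℕ) := by
  have e0 : fderiv ℂ (π ∘ G) u = π.comp (fderiv ℂ G u) :=
    (π.hasFDerivAt.comp u hG.differentiableAt.hasFDerivAt).fderiv
  obtain ⟨Ξ, Θ, p1, p2, p3, p4, p5, -⟩ := straight ((π.analyticAt _).comp hG) (e0 ▸ hs)
  rw [e0] at p3
  set T := π.comp (fderiv ℂ G u)
  obtain ⟨R, hR⟩ := rinv hs
  have t0 : Tendsto Ξ (𝓝 0) (𝓝 u) := p2 ▸ p1.continuousAt.tendsto
  obtain ⟨r, r0, hb⟩ := Metric.eventually_nhds_iff_ball.1 ((p1.eventually_analyticAt.and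
    p3.eventually_nhds).and (t0.eventually (hG.eventually_analyticAt.and hr)))
  have k1 : ∀ w ∈ ball (0 : V) r, ∀ a, T a = 0 → ∃ D : V →L[ℂ] W,
      HasFDerivAt (G ∘ Ξ) D w ∧ D a = 0 := fun w hw a ha => by
    obtain ⟨⟨b1, b2⟩, b3, b4⟩ := hb w hw
    have c1 := b3.differentiableAt.hasFDerivAt.comp w b1.differentiableAt.hasFDerivAt
    refine ⟨_, c1, ?_⟩
    set D := (fderiv ℂ G (Ξ w)).comp (fderiv ℂ Ξ w)
    have c2 : π.comp D = T := (π.hasFDerivAt.comp w c1).unique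
      ((T.hasFDerivAt.const_add _).congr_of_eventuallyEq b2)
    have c3 : finrank ℂ D.range ≤ k :=
      (Submodule.finrank_mono (LinearMap.range_comp_le_range _ _)).trans b4
    have c4 := (D : V →ₗ[ℂ] W).finrank_range_add_finrank_ker
    have c5 := (T : V →ₗ[ℂ] E k).finrank_range_add_finrank_ker
    rw [LinearMap.range_eq_top.2 hs, finrank_top, finrank_euclideanSpace_fin] at c5
    have c6 : D.ker = T.ker := Submodule.eq_of_le_of_finrank_le
      (fun b hb => by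
        have d1 : D b = 0 := hb
        show T b = 0
        rw [← c2, ContinuousLinearMap.comp_apply, d1, map_zero]) (by omega)
    exact (c6.ge ha :)
  have k2 : ∀ w ∈ ball (0 : V) r, R (T w) ∈ ball (0 : V) r → G (Ξ w) = G (Ξ (R (T w))) :=
    fun w hw hw' => by
      have c1 : ∀ t ∈ Icc (0 : ℝ) 1,
          HasDerivAt (fun t : ℝ => (G ∘ Ξ) (R (T w) + t • (w - R (T w)))) 0 t := fun t ht => by
        obtain ⟨D, d1, d2⟩ := k1 _ ((convex_ball 0 r).add_smul_sub_mem hw' hw ht) (w - R (T w))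
          (by rw [map_sub, hR, sub_self])
        have d3 := (d1.restrictScalars ℝ).comp_hasDerivAt t
          (((hasDerivAt_id t).smul_const (w - R (T w))).const_add (R (T w)))
        rwa [one_smul, ContinuousLinearMap.coe_restrictScalars', d2] at d3
      have c2 := constant_of_has_deriv_right_zero
        (fun t ht => (c1 t ht).continuousAt.continuousWithinAt)
        (fun t ht => (c1 t (Ico_subset_Icc_self ht)).hasDerivWithinAt) 1 (by simp)
      simpa using c2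
  obtain ⟨ρ, ρ0, hρ⟩ := Metric.eventually_nhds_iff_ball.1
    ((R.continuous.tendsto' 0 0 (map_zero R)).eventually (ball_mem_nhds 0 r0))
  have k3 : ContDiffOn ℝ 1 ((G ∘ Ξ) ∘ R) (ball 0 ρ) := fun b hb' =>
    ((((hb _ (hρ b hb')).2.1.comp (hb _ (hρ b hb')).1.1).comp
      (R.analyticAt b)).contDiffAt.restrict_scalars ℝ).contDiffWithinAt
  refine ⟨_, p5.and (p4.eventually ((isOpen_ball.eventually_mem (mem_ball_self r0)).and
    ((T.continuous.tendsto' 0 0 (map_zero T)).eventually (ball_mem_nhds 0 ρ0)))), ?_⟩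
  refine le_trans (dimH_mono ?_) ((k3.dimH_image_le (convex_ball 0 ρ) Subset.rfl).trans
    ((dimH_mono (subset_univ _)).trans_eq ?_))
  · rintro _ ⟨v, ⟨h1, h2, h3⟩, rfl⟩
    exact ⟨T (Θ v), h3, (k2 _ h2 (hρ _ h3)).symm.trans (congrArg G h1)⟩
  · rw [Real.dimH_univ_eq_finrank, finrank_real_of_complex, finrank_euclideanSpace_fin]

variable (V W) in
/-- The statement for the source `V`. -/
def SardP (c : ℕ) : Prop := ∀ (G : V → W) (S : Set V),
  (∀ z ∈ S, AnalyticAt ℂ G z ∧ ¬ Function.Surjective (fderiv ℂ G z)) → dimH (G '' S) ≤ (2 * c : ℕ)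

variable {c : ℕ} (ih : ∀ K : Submodule ℂ V, finrank ℂ K < finrank ℂ V → SardP K W c)
include ih

omit [FiniteDimensional ℂ W] in
theorem sard_hyp {G : V → W} {S : Set V} {φ : V → ℂ} {u : V} (hu : u ∈ S) (h1 : AnalyticAt ℂ φ u)
    (h2 : fderiv ℂ φ u ≠ 0) (h3 : ∀ z ∈ S, φ z = 0)
    (h : ∀ z ∈ S, AnalyticAt ℂ G z ∧ ¬ Function.Surjective (fderiv ℂ G z)) :
    ∃ N ∈ 𝓝[S] u, dimH (G '' N) ≤ (2 * c : ℕ) := by
  have hs : Function.Surjective (fderiv ℂ φ u) :=
    LinearMap.surjective (f := (fderiv ℂ φ u : V →ₗ[ℂ] ℂ)) fun e =>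
      h2 (ContinuousLinearMap.coe_injective e)
  obtain ⟨Ξ, Θ, p1, -, -, p4, p5, p6⟩ := straight h1 hs
  have a1 := ih (fderiv ℂ φ u).ker (Submodule.finrank_lt fun e =>
      h2 (ContinuousLinearMap.coe_injective (LinearMap.ker_eq_top.1 e)))
    (G ∘ Ξ ∘ (fderiv ℂ φ u).ker.subtypeL) {w | AnalyticAt ℂ Ξ w ∧ Ξ w ∈ S} fun w hw => by
      have b1 : AnalyticAt ℂ (Ξ ∘ (fderiv ℂ φ u).ker.subtypeL) w :=
        AnalyticAt.comp hw.1 ((fderiv ℂ φ u).ker.subtypeL.analyticAt w)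
      have b3 : AnalyticAt ℂ G ((Ξ ∘ (fderiv ℂ φ u).ker.subtypeL) w) := (h _ hw.2).1
      refine ⟨b3.comp b1, fun b2 => (h _ hw.2).2 ?_⟩
      rw [(b3.differentiableAt.hasFDerivAt.comp w b1.differentiableAt.hasFDerivAt).fderiv] at b2
      exact Function.Surjective.of_comp b2
  refine ⟨_, eventually_mem_nhdsWithin.and
    ((p5.and (p4.eventually p1.eventually_analyticAt)).filter_mono nhdsWithin_le_nhds),
    le_trans (dimH_mono ?_) a1⟩
  rintro _ ⟨v, ⟨b1, b2, b3⟩, rfl⟩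
  refine ⟨⟨Θ v, (p6 v).trans (by rw [h3 v b1, h3 u hu, sub_self])⟩, ⟨b3, b2.symm ▸ b1⟩,
    congrArg G b2⟩

omit [FiniteDimensional ℂ W] in
theorem sard_ord {G : V → W} (j : ℕ) : ∀ (U : Type) [NormedAddCommGroup U] [NormedSpace ℂ U]
    [CompleteSpace U] (δ : V → U) (S : Set V),
    (∀ z ∈ S, AnalyticAt ℂ δ z ∧ δ z = 0 ∧ iteratedFDeriv ℂ j δ z ≠ 0) →
    (∀ z ∈ S, AnalyticAt ℂ G z ∧ ¬ Function.Surjective (fderiv ℂ G z)) →
    dimH (G '' S) ≤ (2 * c : ℕ) := by
  have := FiniteDimensional.proper ℂ V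
  induction j with
  | zero =>
    intro U _ _ _ δ S h1 _
    obtain rfl : S = ∅ := eq_empty_of_forall_notMem fun z hz => (h1 z hz).2.2
      (norm_eq_zero.1 (by rw [norm_iteratedFDeriv_zero, (h1 z hz).2.1, norm_zero]))
    simp
  | succ j IH =>
    intro U _ _ _ δ S h1 h
    rw [← inter_union_sdiff S {z | fderiv ℂ δ z = 0}, image_union, dimH_union]
    refine max_le (IH (V →L[ℂ] U) (fderiv ℂ δ) _ (fun z hz => ⟨(h1 z hz.1).1.fderiv, hz.2,
      fun e => (h1 z hz.1).2.2 (norm_eq_zero.1 ?_)⟩) fun z hz => h z hz.1) (dim_loc fun z hz => ?_)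
    · rw [← norm_iteratedFDeriv_fderiv, e, norm_zero]
    · obtain ⟨a, ha⟩ := DFunLike.ne_iff.1 hz.2
      obtain ⟨l, hl⟩ := SeparatingDual.exists_ne_zero (R := ℂ) ha
      refine sard_hyp ih (φ := l ∘ δ) hz ((l.analyticAt _).comp (h1 z hz.1).1) (fun e => hl ?_)
        (fun y hy => by rw [Function.comp_apply, (h1 y hy.1).2.1, map_zero]) fun y hy => h y hy.1
      rw [(l.hasFDerivAt.comp z (h1 z hz.1).1.differentiableAt.hasFDerivAt).fderiv] at e
      exact DFunLike.congr_fun e a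

theorem sard_step (hc : finrank ℂ W ≤ c + 1) : SardP V W c := by
  have := FiniteDimensional.proper ℂ V
  have := FiniteDimensional.complete ℂ W
  refine fun G S h => dim_loc fun z hz => ?_
  obtain ⟨r, r0, hb⟩ := Metric.eventually_nhds_iff_ball.1 (h z hz).1.eventually_analyticAt
  obtain ⟨w₀, hw₀, hm⟩ := (measure fun w => finrank ℂ (fderiv ℂ G w).ker).wf.has_min (ball z r)
    ⟨z, mem_ball_self r0⟩
  obtain ⟨k, hk⟩ : ∃ k, finrank ℂ (fderiv ℂ G w₀).range = k := ⟨_, rfl⟩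
  have hr : ∀ w ∈ ball z r, finrank ℂ (fderiv ℂ G w).range ≤ k := fun w hw => by
    have c1 : ¬ finrank ℂ (fderiv ℂ G w).ker < finrank ℂ (fderiv ℂ G w₀).ker := hm w hw
    have c4 := (fderiv ℂ G w : V →ₗ[ℂ] W).finrank_range_add_finrank_ker
    have c5 := (fderiv ℂ G w₀ : V →ₗ[ℂ] W).finrank_range_add_finrank_ker
    omega
  obtain ⟨e⟩ : Nonempty ((fderiv ℂ G w₀).range ≃ₗ[ℂ] E k) :=
    FiniteDimensional.nonempty_linearEquiv_of_finrank_eq (by rw [hk, finrank_euclideanSpace_fin])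
  obtain ⟨p, hp⟩ := (fderiv ℂ G w₀).range.subtype.exists_leftInverse_of_injective
    (Submodule.ker_subtype _)
  let π : W →L[ℂ] E k := LinearMap.toContinuousLinearMap (e.toLinearMap.comp p)
  obtain ⟨R, hR⟩ := rinv (T := π.comp (fderiv ℂ G w₀)) fun b => by
    obtain ⟨⟨_, a, rfl⟩, rfl⟩ := e.surjective b
    exact ⟨a, congrArg e (LinearMap.congr_fun hp ⟨_, a, rfl⟩)⟩
  let δ : V → ℂ := fun w => ((π.comp (fderiv ℂ G w)).comp R).det
  have hδ : AnalyticOnNhd ℂ δ (ball z r) := fun w hw => (analyticAt_det _).comp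
    (((((ContinuousLinearMap.compL ℂ (E k) V (E k)).flip R).comp
      (ContinuousLinearMap.compL ℂ V W (E k) π)).analyticAt _).comp (hb w hw).fderiv)
  have h0 : δ w₀ ≠ 0 := by
    simp only [δ]
    rw [show (π.comp (fderiv ℂ G w₀)).comp R = 1 from ContinuousLinearMap.ext hR]
    exact det_ne isUnit_one
  refine ⟨S ∩ ball z r, inter_mem_nhdsWithin _ (ball_mem_nhds z r0), le_trans (dimH_mono (image_mono
    (t := (S ∩ ball z r ∩ {w | δ w ≠ 0}) ∪
      ⋃ j, {w ∈ S ∩ ball z r | δ w = 0 ∧ iteratedFDeriv ℂ j δ w ≠ 0}) fun w hw => ?_)) ?_⟩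
  · by_contra hn
    simp only [mem_union, mem_iUnion, not_or, not_exists] at hn
    have a1 : δ w = 0 := by
      by_contra a
      exact hn.1 ⟨hw, a⟩
    have a2 : ∀ j, iteratedFDeriv ℂ j δ w = 0 := fun j => by
      by_contra a
      exact hn.2 j ⟨hw, a1, a⟩
    obtain ⟨q, ρ, hq⟩ := hδ w hw.2
    refine h0 (hδ.eqOn_zero_of_preconnected_of_eventuallyEq_zero (convex_ball z r).isPreconnected
      hw.2 (hq.eventually_hasSum_sub.and (Metric.eball_mem_nhds w hq.r_pos) |>.mono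
        fun y hy => ?_) hw₀)
    have a3 := hq.hasSum_iteratedFDeriv (y := y - w) (by simpa [edist_eq_enorm_sub] using hy.2)
    simp only [a2, zero_apply, smul_zero, add_sub_cancel] at a3
    exact a3.unique hasSum_zero
  · rw [image_union, dimH_union, image_iUnion, dimH_iUnion]
    refine max_le (dim_loc fun w hw => ?_) (iSup_le fun j => sard_ord ih j ℂ δ _
      (fun w hw => ⟨hδ w hw.1.2, hw.2⟩) fun w hw => h w hw.1.1)
    have a1 : Function.Surjective (π.comp (fderiv ℂ G w)) :=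
      Function.Surjective.of_comp (g := R) (LinearMap.equivOfDetNeZero _ hw.2).surjective
    obtain ⟨N, b1, b2⟩ := sard_cr (hb w hw.1.2) π a1
      ((isOpen_ball.eventually_mem hw.1.2).mono hr)
    refine ⟨N, mem_nhdsWithin_of_mem_nhds b1, b2.trans (Nat.cast_le.2 ?_)⟩
    have a2 : finrank ℂ (fderiv ℂ G w).range < finrank ℂ W :=
      Submodule.finrank_lt fun e => (h w hw.1.1).2 (LinearMap.range_eq_top.1 e)
    have a3 := Submodule.finrank_map_le (π : W →ₗ[ℂ] E k) (fderiv ℂ G w).range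
    rw [← LinearMap.range_comp, (LinearMap.range_eq_top (f := (π : W →ₗ[ℂ] E k).comp (fderiv ℂ G w : V →ₗ[ℂ] W))).2 a1,
      finrank_top, finrank_euclideanSpace_fin] at a3
    omega

omit ih in
theorem sard (hc : finrank ℂ W ≤ c + 1) (m : ℕ) : ∀ (V : Type) [NormedAddCommGroup V]
    [NormedSpace ℂ V] [FiniteDimensional ℂ V], finrank ℂ V = m → SardP V W c := by
  induction m using Nat.strong_induction_on with
  | _ m IH => exact fun V _ _ _ hV => sard_step (fun K hK => IH _ (hV ▸ hK) K rfl) hc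

end Vale.Agent.P284
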