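import Vale.Agent.P284.Main
import Vale.Agent.P284.Sard

/-! P284 Surj: a surjective holomorphic map has a regular fibre. -/

open Set Filter Topology Module
open scoped Manifold ContDiff

namespace Vale.Agent.P284

open Vale.Agent.P272

variable {n d : ℕ} {X Y : Type} [TopologicalSpace X] [ChartedSpace (E n) X]
  [TopologicalSpace Y] [ChartedSpace (E d) Y] {f : X → Y}
  [IsManifold 𝓘(ℂ, E n) ω X] [IsManifold 𝓘(ℂ, E d) ω Y]

theorem crit_dim [CompactSpace X] {c : ℕ} (hc : d ≤ c + 1)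
    (hf : MDifferentiable 𝓘(ℂ, E n) 𝓘(ℂ, E d) f) (y : Y) :
    dimH ((chartAt (E d) y ∘ f) '' {q | f q ∈ (chartAt (E d) y).source ∧
      ¬ Function.Surjective (dm n d f q)}) ≤ (2 * c : ℕ) := by
  have := ChartedSpace.secondCountable_of_sigmaCompact (E n) X
  refine dim_loc fun x _ => ⟨_, inter_mem_nhdsWithin _ (chart_source_mem_nhds (E n) x), ?_⟩
  refine le_trans (dimH_mono ?_) (sard (W := E d) (by rwa [finrank_euclideanSpace_fin]) _ (E n) rfl
    (loc n d f x y) (chartAt (E n) x '' ({q | f q ∈ (chartAt (E d) y).source ∧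
      ¬ Function.Surjective (dm n d f q)} ∩ (chartAt (E n) x).source)) ?_)
  · rintro _ ⟨q, hq, rfl⟩
    exact ⟨_, ⟨q, hq, rfl⟩, loc_app hq.2⟩
  · rintro _ ⟨q, hq, rfl⟩
    refine ⟨loc_an hf hq.2 hq.1.1, fun h => hq.1.2 fun b => ?_⟩
    rw [(loc_der hf hq.2 hq.1.1).fderiv] at h
    obtain ⟨a, ha⟩ := h (jac d Y y (f q) (f q) b)
    refine ⟨jac n X q x q a, sub_eq_zero.1 (z_inj (z_jac y (f q)) (z_jac (f q) y) hq.1.1
      (mem_chart_source (E d) _) ?_)⟩
    rw [map_sub, sub_eq_zero]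
    exact ha

theorem reg_fibre [CompactSpace X] (hd : 1 ≤ d) (hf : MDifferentiable 𝓘(ℂ, E n) 𝓘(ℂ, E d) f)
    {y : Y} (hy : range f ∈ 𝓝 y) :
    ∃ x, ∀ z, f z = f x → Function.Surjective (dm n d f z) := by
  obtain ⟨c, rfl⟩ : ∃ c, d = c + 1 := ⟨d - 1, by omega⟩
  have h1 := dense_compl_of_dimH_lt_finrank ((crit_dim le_rfl hf y).trans_lt (by
    rw [finrank_real_of_complex, finrank_euclideanSpace_fin]
    exact Nat.cast_lt.2 (by omega)))
  obtain ⟨b, b2, b1, x, hx⟩ := h1.inter_nhds_nonempty (ev_U (mem_chart_source (E (c + 1)) y) hy)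
  refine ⟨x, fun z hz => ?_⟩
  by_contra hn
  have h2 : f z ∈ (chartAt (E (c + 1)) y).source := by
    rw [hz, hx]
    exact (chartAt (E (c + 1)) y).map_target b1
  refine b2 ⟨z, ⟨h2, hn⟩, ?_⟩
  rw [Function.comp_apply, hz, hx, (chartAt (E (c + 1)) y).right_inv b1]

theorem dim_zero' [T2Space X] [CompactSpace X] [ConnectedSpace X]
    [T2Space Y] [CompactSpace Y] [ConnectedSpace Y] (hX : Special n X) (hY : HypK d Y)
    (hf : Hol n d f) {y : Y} (hy : range f ∈ 𝓝 y) : d = 0 := by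
  by_contra hd
  have h1 : 1 ≤ d := Nat.one_le_iff_ne_zero.2 hd
  obtain ⟨⟨g, hg⟩, hY⟩ := hY
  obtain ⟨x, h2⟩ := reg_fibre h1 hf hy
  have h3 : d ≤ n := by
    simpa using LinearMap.finrank_le_finrank_of_surjective
      (f := (dm n d f x : E n →ₗ[ℂ] E d)) (h2 x rfl)
  refine pbMor_ne hf (h2 x rfl) (hX d h1 h3 (pb hf) ⟨lower hf (h2 x rfl) ?_, ?_⟩ (pbMor hf) x)
  · exact z_full g hg.isKahler hY fun _ hA ρ hρ v => ample h1 hA ρ hρ v
  · rintro r ⟨m, -, h⟩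
    exact upper hf h2 h

end Vale.Agent.P284
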