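import Vale.Agent.P284.Pull

/-! P284 Upper: the Iitaka dimension of the pull-back is at most the dimension of the base. -/

open Set Filter Topology Metric
open scoped Manifold ContDiff

noncomputable section

namespace Vale.Agent.P284

open Vale.Agent.P272

variable {n d : ℕ} {X Y : Type} [TopologicalSpace X] [ChartedSpace (E n) X]
  [TopologicalSpace Y] [ChartedSpace (E d) Y] {f : X → Y} {x x' q : X} {L : LB n X} {m r : ℕ}

/-- The one-jets of the sections at a point of the chart at `x`. -/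
def jet (σ : Fin r → L.Sec m) (x : X) (u : E n) : (ℂ × E n) →ₗ[ℂ] (Fin r → ℂ) :=
  LinearMap.pi fun i => (LinearMap.fst ℂ ℂ (E n)).smulRight ((σ i).s x u) +
    (fderiv ℂ ((σ i).s x) u : E n →ₗ[ℂ] ℂ).comp (LinearMap.snd ℂ ℂ (E n))

theorem jet_app (σ : Fin r → L.Sec m) (x : X) (u : E n) (v : ℂ × E n) (i : Fin r) :
    jet σ x u v i = v.1 * (σ i).s x u + fderiv ℂ ((σ i).s x) u v.2 := rfl

theorem sec_an (σ : L.Sec m) (hq : q ∈ L.U x) : AnalyticAt ℂ (σ.s x) (chartAt (E n) x q) :=
  P278.osgood (((chartAt (E n) x).isOpen_image_iff_of_subset_source (L.sub x)).2 (L.opn x))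
    (σ.hol x) _ ⟨q, hq, rfl⟩

theorem ev_U (hx : q ∈ (chartAt (E n) x).source) {S : Set X} (hS : S ∈ 𝓝 q) :
    ∀ᶠ u in 𝓝 (chartAt (E n) x q), u ∈ (chartAt (E n) x).target ∧
      (chartAt (E n) x).symm u ∈ S := by
  refine ((z_ev hx hx).mono fun u hu => hu.1).and
    (((chartAt (E n) x).continuousAt_symm ((chartAt (E n) x).map_source hx)).eventually_mem ?_)
  rwa [(chartAt (E n) x).left_inv hx]

theorem jet_det (σ : Fin r → L.Sec m) (x : X) (u : E n) (v : Fin r → ℂ × E n)
    (h : (Matrix.of fun i j => jet σ x u (v j) i).det ≠ 0) : Function.Surjective (jet σ x u) := by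
  intro b
  obtain ⟨c, hc⟩ := Matrix.mulVec_surjective_iff_isUnit.2
    ((Matrix.isUnit_iff_isUnit_det _).2 h.isUnit) b
  refine ⟨∑ j, c j • v j, funext fun i => ?_⟩
  rw [map_sum, Finset.sum_apply, ← hc]
  exact Finset.sum_congr rfl fun j _ => by rw [map_smul]; exact mul_comm _ _

variable [IsManifold 𝓘(ℂ, E n) ω X]

theorem jet_chg (σ : Fin r → L.Sec m) (h : q ∈ L.U x) (h' : q ∈ L.U x')
    (hs : Function.Surjective (jet σ x' (chartAt (E n) x' q))) :
    Function.Surjective (jet σ x (chartAt (E n) x q)) := by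
  have hU : L.U x' ∩ L.U x ∈ 𝓝 q := ((L.opn x').inter (L.opn x)).mem_nhds ⟨h', h⟩
  have a0 := ev_U (L.sub x' h') hU
  let G : E n → ℂ := fun u => (L.g x x' ((chartAt (E n) x').symm u)) ^ m
  have a1 : DifferentiableAt ℂ G (chartAt (E n) x' q) := by
    have b1 : DifferentiableAt ℂ (L.g x' x ∘ (chartAt (E n) x').symm) (chartAt (E n) x' q) :=
      (L.hol x' x).differentiableAt (a0.mono fun u hu =>
        ⟨_, hu.2, (chartAt (E n) x').right_inv hu.1⟩)
    have b2 : ∀ z ∈ L.U x' ∩ L.U x, L.g x x' z * L.g x' x z = 1 := fun z hz =>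
      (L.coc x x' x z hz.2 hz.1 hz.2).trans (L.one x z hz.2)
    have b3 : (L.g x' x ∘ (chartAt (E n) x').symm) (chartAt (E n) x' q) ≠ 0 := by
      rw [Function.comp_apply, (chartAt (E n) x').left_inv (L.sub x' h')]
      exact right_ne_zero_of_mul_eq_one (b2 q ⟨h', h⟩)
    exact ((b1.inv b3).pow m).congr_of_eventuallyEq (a0.mono fun u hu =>
      congrArg (· ^ m) (eq_inv_of_mul_eq_one_left (b2 _ hu.2)))
  have a2 : HasFDerivAt (chartAt (E n) x ∘ (chartAt (E n) x').symm) (jac n X x x' q)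
      (chartAt (E n) x' q) := (z_jac x x' q (L.sub x h) (L.sub x' h')).hasFDerivAt
  have e1 : (chartAt (E n) x ∘ (chartAt (E n) x').symm) (chartAt (E n) x' q) =
      chartAt (E n) x q := by rw [Function.comp_apply, (chartAt (E n) x').left_inv (L.sub x' h')]
  have e2 : G (chartAt (E n) x' q) = L.g x x' q ^ m := by
    simp only [G, (chartAt (E n) x').left_inv (L.sub x' h')]
  intro b
  obtain ⟨v, rfl⟩ := hs b
  refine ⟨(v.1 * L.g x x' q ^ m + fderiv ℂ G (chartAt (E n) x' q) v.2,
    L.g x x' q ^ m • jac n X x x' q v.2), funext fun i => ?_⟩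
  have a3 : HasFDerivAt ((σ i).s x) (fderiv ℂ ((σ i).s x) (chartAt (E n) x q))
      ((chartAt (E n) x ∘ (chartAt (E n) x').symm) (chartAt (E n) x' q)) := by
    rw [e1]
    exact (sec_an (σ i) h).differentiableAt.hasFDerivAt
  have a4 : fderiv ℂ ((σ i).s x') (chartAt (E n) x' q) = _ :=
    (((a3.comp _ a2).fun_mul a1.hasFDerivAt).congr_of_eventuallyEq (a0.mono fun u hu => by
      have b1 := (σ i).compat x x' _ hu.2.2 hu.2.1
      simp only [ch] at b1
      rwa [(chartAt (E n) x').right_inv hu.1] at b1)).fderiv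
  rw [jet_app, jet_app, a4, (σ i).compat x x' q h h', Function.comp_apply, e1, e2]
  simp only [add_apply, smul_apply,
    ContinuousLinearMap.comp_apply, map_smul, smul_eq_mul]
  ring

theorem spread [ConnectedSpace X] (σ : Fin r → L.Sec m) {x₀ : X}
    (h : ∀ᶠ z in 𝓝 x₀, ¬ Function.Surjective (jet σ z (chartAt (E n) z z))) (q : X) :
    ¬ Function.Surjective (jet σ q (chartAt (E n) q q)) := by
  let G : Set X := {x | ∀ᶠ z in 𝓝 x, ¬ Function.Surjective (jet σ z (chartAt (E n) z z))}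
  have hc : IsClosed G := by
    refine isClosed_of_closure_subset fun x hx => ?_
    obtain ⟨ρ, r0, hr⟩ := Metric.eventually_nhds_iff_ball.1
      (ev_U (mem_chart_source (E n) x) ((L.opn x).mem_nhds (L.mem x)))
    have b1 : ∀ᶠ z in 𝓝 x, z ∈ L.U x ∧ chartAt (E n) x z ∈ ball (chartAt (E n) x x) ρ :=
      ((L.opn x).eventually_mem (L.mem x)).and (((chartAt (E n) x).continuousAt
        (mem_chart_source _ x)).eventually_mem (ball_mem_nhds _ r0))
    obtain ⟨z₀, b2, b3⟩ := ((mem_closure_iff_frequently.1 hx).and_eventually b1).exists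
    refine b1.mono fun z hz hs => ?_
    choose v hv using fun j => jet_chg σ hz.1 (L.mem z) hs (Pi.single j 1)
    have b4 : AnalyticOnNhd ℂ (fun u => (Matrix.of fun i j => jet σ x u (v j) i).det)
        (ball (chartAt (E n) x x) ρ) := fun u hu => an_det fun i j => by
      have c1 := sec_an (σ i) (hr u hu).2
      rw [(chartAt (E n) x).right_inv (hr u hu).1] at c1
      exact (analyticAt_const.mul c1).add
        (((ContinuousLinearMap.apply ℂ ℂ (v j).2).analyticAt _).comp c1.fderiv)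
    have b5 := b4.eqOn_zero_of_preconnected_of_eventuallyEq_zero
      (convex_ball _ _).isPreconnected b3.2
      ((ev_U (L.sub x b3.1) (((L.opn x).eventually_mem b3.1).and b2)).mono fun u hu => by
        by_contra c1
        refine hu.2.2 (jet_chg σ (L.mem _) hu.2.1 ?_)
        rw [(chartAt (E n) x).right_inv hu.1]
        exact jet_det σ x u v c1) hz.2
    have b6 : (Matrix.of fun i j => jet σ x (chartAt (E n) x z) (v j) i) = 1 := by
      ext i j
      rw [Matrix.of_apply, hv, Matrix.one_apply, Pi.single_apply]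
    simp only [b6, Matrix.det_one] at b5
    exact one_ne_zero b5
  have hG : G = univ := IsClopen.eq_univ ⟨hc, isOpen_setOfPred_eventually_nhds⟩ ⟨x₀, h⟩
  exact (show q ∈ G from hG ▸ mem_univ q).self_of_nhds

variable [IsManifold 𝓘(ℂ, E d) ω Y]

theorem reg_open (hf : MDifferentiable 𝓘(ℂ, E n) 𝓘(ℂ, E d) f) :
    IsOpen {q | Function.Surjective (dm n d f q)} := by
  refine isOpen_iff_mem_nhds.2 fun x hx => ?_
  obtain ⟨R, hR⟩ := right_inv hx
  have a1 : ContinuousAt (fun u => ((fderiv ℂ (loc n d f x (f x)) u).comp R).det)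
      (chartAt (E n) x x) :=
    (analyticAt_det _).continuousAt.comp ((loc_an hf (mem_chart_source _ x)
      (mem_chart_source _ _)).fderiv.continuousAt.clm_comp continuousAt_const)
  have a2 : ((fderiv ℂ (loc n d f x (f x)) (chartAt (E n) x x)).comp R).det ≠ 0 := by
    rw [show (fderiv ℂ (loc n d f x (f x)) (chartAt (E n) x x)).comp R = 1 from
      ContinuousLinearMap.ext hR]
    exact det_ne isUnit_one
  refine ((((pb hf).opn x).eventually_mem ((pb hf).mem x)).and
    (((chartAt (E n) x).continuousAt (mem_chart_source _ x)).eventually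
      (a1.eventually_ne a2))).mono fun q hq b => ?_
  have a3 := (loc_chg hf.continuous (loc_an hf hq.1.1 hq.1.2).differentiableAt.hasFDerivAt hq.1.1
    hq.1.1 hq.1.2 (mem_chart_source _ (f q))).unique (loc_der hf hq.1.1 (mem_chart_source _ _))
  rw [jac_one hq.1.1, jac_one (mem_chart_source _ _)] at a3
  have a4 := z_det (z_jac (f q) (f x)) (z_jac (f x) (f q)) (mem_chart_source (E d) _) hq.1.2
  obtain ⟨c, rfl⟩ := (LinearMap.equivOfDetNeZero _ a4).surjective b
  obtain ⟨a, rfl⟩ := (LinearMap.equivOfDetNeZero _ hq.2).surjective c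
  exact ⟨_, (DFunLike.congr_fun a3 (R a)).symm⟩

theorem kill [T2Space X] [CompactSpace X] [T1Space Y] (hf : MDifferentiable 𝓘(ℂ, E n) 𝓘(ℂ, E d) f)
    (hs : ∀ x, f x = f q → Function.Surjective (dm n d f x)) (σ : (pb hf).Sec m) {a : E n}
    (ha : dm n d f q a = 0) : fderiv ℂ (σ.s q) (chartAt (E n) q q) a = 0 := by
  have key : ∀ x ∈ f ⁻¹' {f q}, ∃ ψ Θ : E n → E n, AnalyticAt ℂ ψ 0 ∧ ψ 0 = chartAt (E n) x x ∧
      (∀ᶠ w in 𝓝 0, ContinuousAt ((chartAt (E n) x).symm ∘ ψ) w ∧
        ((chartAt (E n) x).symm ∘ ψ) w ∈ f ⁻¹' {f q}) ∧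
      ((fun z => σ.s z (chartAt (E n) z z)) ∘ (chartAt (E n) x).symm ∘ ψ =ᶠ[𝓝 0] σ.s x ∘ ψ) ∧
      (∀ a, dm n d f x a = 0 → fderiv ℂ ψ 0 a = a) ∧ Tendsto Θ (𝓝 (chartAt (E n) x x)) (𝓝 0) ∧
      ∀ᶠ v in 𝓝 (chartAt (E n) x x),
        loc n d f x (f x) v = loc n d f x (f x) (chartAt (E n) x x) → ψ (Θ v) = v := by
    intro x hx
    obtain ⟨ψ, Θ, p1, p2, p3, p4, p5, p6⟩ :=
      param (loc_an hf (mem_chart_source _ x) (mem_chart_source _ _)) (hs x hx)
    have a1 := (p2 ▸ p1.continuousAt.tendsto : Tendsto ψ (𝓝 0) (𝓝 (chartAt (E n) x x))).eventually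
      (ev_U (mem_chart_source (E n) x) (((pb hf).opn x).mem_nhds ((pb hf).mem x)))
    have a2 : ∀ᶠ w in 𝓝 0, f ((chartAt (E n) x).symm (ψ w)) = f x := (a1.and p3).mono fun w hw =>
      (chartAt (E d) (f x)).injOn hw.1.2.2 (mem_chart_source _ _)
        (hw.2.trans (loc_app (mem_chart_source _ x)))
    refine ⟨ψ, Θ, p1, p2, ((a1.and a2).and p1.eventually_analyticAt).mono fun w hw =>
      ⟨((chartAt (E n) x).continuousAt_symm hw.1.1.1).comp hw.2.continuousAt, hw.1.2.trans hx⟩,
      (a1.and a2).mono fun w hw => ?_, p4, p5, p6⟩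
    have b1 := σ.compat x _ _ hw.1.2 ((pb hf).mem _)
    simp only [ch] at b1
    have b2 : (pb hf).g x ((chartAt (E n) x).symm (ψ w)) ((chartAt (E n) x).symm (ψ w)) = 1 := by
      show (jac d Y (f x) (f _) (f _)).det = 1
      rw [hw.2]
      exact det_jac_one (mem_chart_source _ _)
    rwa [b2, one_pow, mul_one, (chartAt (E n) x).right_inv hw.1.1] at b1
  have hc := loc_const (n := n) (H := fun z => σ.s z (chartAt (E n) z z))
    (isClosed_singleton.preimage hf.continuous).isCompact (fun x hx => by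
      obtain ⟨ψ, Θ, p1, p2, p3, p4, -, p5, p6⟩ := key x hx
      have a0 := (chartAt (E n) x).continuousAt (mem_chart_source _ x)
      refine ⟨(chartAt (E n) x).symm ∘ ψ, Θ ∘ chartAt (E n) x, ?_, p3,
        ((p2 ▸ sec_an σ ((pb hf).mem x) : AnalyticAt ℂ (σ.s x) (ψ 0)).comp p1).congr p4.symm,
        p5.comp a0, ((a0.eventually p6).and ((chartAt (E n) x).open_source.eventually_mem
          (mem_chart_source _ x))).mono fun z hz h => ?_⟩
      · rw [Function.comp_apply, p2, (chartAt (E n) x).left_inv (mem_chart_source _ x)]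
      · rw [Function.comp_apply, Function.comp_apply, hz.1 (by
          rw [loc_app hz.2, loc_app (mem_chart_source _ x), h.trans hx.symm]),
          (chartAt (E n) x).left_inv hz.2]) q rfl
  obtain ⟨ψ, Θ, p1, p2, p3, p4, p5, -⟩ := key q rfl
  have a1 : Tendsto ((chartAt (E n) q).symm ∘ ψ) (𝓝 0) (𝓝[f ⁻¹' {f q}] q) :=
    tendsto_nhdsWithin_iff.2 ⟨by
      have b1 := p3.self_of_nhds.1.tendsto
      rwa [Function.comp_apply, p2, (chartAt (E n) q).left_inv (mem_chart_source _ q)] at b1,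
      p3.mono fun w hw => hw.2⟩
  have a2 : σ.s q ∘ ψ =ᶠ[𝓝 0] fun _ => σ.s q (chartAt (E n) q q) := p4.symm.trans (a1.eventually hc)
  have a3 : HasFDerivAt (σ.s q) (fderiv ℂ (σ.s q) (chartAt (E n) q q)) (ψ 0) :=
    p2 ▸ (sec_an σ ((pb hf).mem q)).differentiableAt.hasFDerivAt
  have a4 := (a3.comp 0 p1.differentiableAt.hasFDerivAt).unique
    ((hasFDerivAt_const _ _).congr_of_eventuallyEq a2)
  have a5 := DFunLike.congr_fun a4 a
  rwa [ContinuousLinearMap.comp_apply, p5 a ha] at a5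

theorem upper [T2Space X] [CompactSpace X] [ConnectedSpace X] [T2Space Y]
    (hf : MDifferentiable 𝓘(ℂ, E n) 𝓘(ℂ, E d) f)
    (hs : ∀ z, f z = f x → Function.Surjective (dm n d f z)) (h : (pb hf).RankGe m r) : r ≤ d := by
  obtain ⟨σ, q, -, hq⟩ := h
  by_contra hr
  have a1 : IsClosed (f '' {q | Function.Surjective (dm n d f q)}ᶜ) :=
    ((reg_open hf).isClosed_compl.isCompact.image hf.continuous).isClosed
  refine spread σ (x₀ := x) ((hf.continuous.continuousAt.eventually_mem
    (a1.isOpen_compl.mem_nhds ?_)).mono fun z hz hj => ?_) q hq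
  · rintro ⟨z, h1, h2⟩
    exact h1 (hs z h2)
  · have a2 : ∀ w, f w = f z → Function.Surjective (dm n d f w) := fun w hw => by
      by_contra h1
      exact hz ⟨w, h1, hw⟩
    obtain ⟨R, hR⟩ := right_inv (a2 z rfl)
    have a3 : Function.Surjective ((jet σ z (chartAt (E n) z z)).comp
        (LinearMap.prodMap LinearMap.id (R : E d →ₗ[ℂ] E n))) := fun b => by
      obtain ⟨v, rfl⟩ := hj b
      refine ⟨(v.1, dm n d f z v.2), funext fun i => ?_⟩
      have b1 := kill hf a2 (σ i) (a := R (dm n d f z v.2) - v.2) (by rw [map_sub, hR, sub_self])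
      rw [map_sub, sub_eq_zero] at b1
      exact congrArg (_ + ·) b1
    have a4 := LinearMap.finrank_le_finrank_of_surjective a3
    simp only [Module.finrank_fin_fun, Module.finrank_prod, Module.finrank_self,
      finrank_euclideanSpace_fin] at a4
    omega

end Vale.Agent.P284
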